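import Vale.Agent.P159.Defs

/-!
# The square-lattice O(n) model with free boundary

`spinCorr n R β x y` is the expectation of `σ x · σ y` on the box `[-R, R]²`.
-/

namespace Vale.Agent.P163

open MeasureTheory Vale.Agent.P159
open scoped RealInnerProductSpace

/-- The unit sphere of `ℝⁿ`. -/
abbrev Spin (n : ℕ) : Type := Metric.sphere (0 : EuclideanSpace ℝ (Fin n)) 1

/-- The normalised uniform measure on the sphere. -/
noncomputable def uniformSphere (n : ℕ) : Measure (Spin n) :=
  (Measure.toSphere (volume : Measure (EuclideanSpace ℝ (Fin n))) Set.univ)⁻¹ •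
    Measure.toSphere (volume : Measure (EuclideanSpace ℝ (Fin n)))

/-- The sum of `σ p · σ q` over the edges of the box. -/
noncomputable def spinEnergy {n : ℕ} (R : ℕ) (σ : box R → Spin n) : ℝ :=
  ∑ p : box R, ∑ q : box R,
    nnWeight p.1 q.1 * ⟪(σ p : EuclideanSpace ℝ (Fin n)), (σ q : EuclideanSpace ℝ (Fin n))⟫

/-- The free-boundary two-point function of the O(n) model (zero off the box). -/
noncomputable def spinCorr (n R : ℕ) (β : ℝ) (x y : ℤ × ℤ) : ℝ :=
  if h : x ∈ box R ∧ y ∈ box R then
    (∫ σ : box R → Spin n,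
        ⟪(σ ⟨x, h.1⟩ : EuclideanSpace ℝ (Fin n)), (σ ⟨y, h.2⟩ : EuclideanSpace ℝ (Fin n))⟫ *
          Real.exp (β * spinEnergy R σ)
        ∂Measure.pi fun _ => uniformSphere n) /
      ∫ σ : box R → Spin n, Real.exp (β * spinEnergy R σ)
        ∂Measure.pi fun _ => uniformSphere n
  else 0

end Vale.Agent.P163
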