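import Vale.Agent.P159.Mass
import Vale.Agent.P163.Defs

/-!
# The O(n) two-point function is dominated by that of the plane rotator

Averaging over independent rotations of every spin in one coordinate plane leaves a plane rotator
with couplings `β ρ p ρ q ≤ β`, so the Ginibre monotonicity applies.
-/

namespace Vale.Agent.P163

open MeasureTheory Filter Topology Vale.Agent.P159
open scoped RealInnerProductSpace Real Pointwise

variable {n : ℕ}

/-- The rotation by `t` in the plane of the coordinates `i`, `j`. -/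
noncomputable def rotLin (i j : Fin n) (t : Circ) :
    EuclideanSpace ℝ (Fin n) →ₗ[ℝ] EuclideanSpace ℝ (Fin n) where
  toFun v := WithLp.toLp 2 fun k =>
    if k = i then cosC t * v i - sinC t * v j
    else if k = j then sinC t * v i + cosC t * v j else v k
  map_add' v w := by
    ext k
    simp only [PiLp.add_apply]
    split_ifs <;> ring
  map_smul' c v := by
    ext k
    simp only [PiLp.smul_apply, smul_eq_mul, RingHom.id_apply]
    split_ifs <;> ring

lemma rotLin_apply (i j : Fin n) (t : Circ) (v : EuclideanSpace ℝ (Fin n)) (k : Fin n) :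
    rotLin i j t v k = if k = i then cosC t * v i - sinC t * v j
      else if k = j then sinC t * v i + cosC t * v j else v k := rfl

lemma inner_eq_sum (v w : EuclideanSpace ℝ (Fin n)) : ⟪v, w⟫ = ∑ k, v k * w k := by
  rw [PiLp.inner_apply]
  exact Finset.sum_congr rfl fun k _ => by simp [mul_comm]

lemma sum_split {i j : Fin n} (hij : i ≠ j) (f : Fin n → ℝ) :
    ∑ k, f k = f i + f j + ∑ k ∈ ((Finset.univ.erase i).erase j), f k := by
  rw [← Finset.add_sum_erase _ _ (Finset.mem_univ i),
    ← Finset.add_sum_erase _ _ (Finset.mem_erase.2 ⟨hij.symm, Finset.mem_univ j⟩), add_assoc]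

lemma rotLin_norm {i j : Fin n} (hij : i ≠ j) (t : Circ) (v : EuclideanSpace ℝ (Fin n)) :
    ‖rotLin i j t v‖ = ‖v‖ := by
  have hcs : cosC t ^ 2 + sinC t ^ 2 = 1 := Real.Angle.cos_sq_add_sin_sq t
  have h : ⟪rotLin i j t v, rotLin i j t v⟫ = ⟪v, v⟫ := by
    rw [inner_eq_sum, inner_eq_sum, sum_split hij, sum_split hij (fun k => v k * v k)]
    rw [Finset.sum_congr rfl (g := fun k => v k * v k) fun k hk => by
      simp only [Finset.mem_erase] at hk
      rw [rotLin_apply, if_neg hk.2.1, if_neg hk.1]]
    rw [rotLin_apply, rotLin_apply, if_pos rfl, if_neg hij.symm, if_pos rfl]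
    linear_combination (v i * v i + v j * v j) * hcs
  rw [real_inner_self_eq_norm_sq, real_inner_self_eq_norm_sq] at h
  exact (pow_left_inj₀ (norm_nonneg _) (norm_nonneg _) two_ne_zero).1 h

/-- The rotation as an isometric equivalence. -/
noncomputable def rotEquiv {i j : Fin n} (hij : i ≠ j) (t : Circ) :
    EuclideanSpace ℝ (Fin n) ≃ₗᵢ[ℝ] EuclideanSpace ℝ (Fin n) :=
  LinearIsometry.toLinearIsometryEquiv ⟨rotLin i j t, rotLin_norm hij t⟩ rfl

lemma rotEquiv_apply {i j : Fin n} (hij : i ≠ j) (t : Circ) (v : EuclideanSpace ℝ (Fin n)) :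
    rotEquiv hij t v = rotLin i j t v := rfl

/-- The rotation of the sphere. -/
noncomputable def rotSpin {i j : Fin n} (hij : i ≠ j) (t : Circ) (s : Spin n) : Spin n :=
  ⟨rotLin i j t s, by rw [mem_sphere_zero_iff_norm, rotLin_norm hij, norm_eq_of_mem_sphere]⟩

lemma continuous_rotSpin {i j : Fin n} (hij : i ≠ j) :
    Continuous fun p : Circ × Spin n => rotSpin hij p.1 p.2 := by
  refine Continuous.subtype_mk ?_ _
  refine (PiLp.continuous_toLp 2 _).comp (continuous_pi fun k => ?_)
  by_cases h1 : k = i <;> by_cases h2 : k = j <;>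
    simp only [h1, h2, if_true, if_false] <;> (try split_ifs) <;> fun_prop

lemma measurePreserving_rotSpin {i j : Fin n} (hij : i ≠ j) (t : Circ) :
    MeasurePreserving (rotSpin hij t) (uniformSphere n) (uniformSphere n) := by
  have hm : Measurable (rotSpin hij t) :=
    ((continuous_rotSpin hij).comp (continuous_const.prodMk continuous_id)).measurable
  have hbase : MeasurePreserving (rotSpin hij t)
      (Measure.toSphere (volume : Measure (EuclideanSpace ℝ (Fin n))))
      (Measure.toSphere (volume : Measure (EuclideanSpace ℝ (Fin n)))) := by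
    refine ⟨hm, Measure.ext fun s hs => ?_⟩
    rw [Measure.map_apply hm hs, Measure.toSphere_apply' _ hs,
      Measure.toSphere_apply' _ (hm hs)]
    congr 1
    set g := rotEquiv hij t with hg
    have e : Set.Ioo (0 : ℝ) 1 • (Subtype.val '' (rotSpin hij t ⁻¹' s))
        = g ⁻¹' (Set.Ioo (0 : ℝ) 1 • (Subtype.val '' s)) := by
      ext v
      simp only [Set.mem_smul, Set.mem_image, Set.mem_preimage]
      constructor
      · rintro ⟨c, hc, _, ⟨u, hu, rfl⟩, rfl⟩
        exact ⟨c, hc, _, ⟨rotSpin hij t u, hu, rfl⟩, (map_smul g c (u : EuclideanSpace ℝ (Fin n))).symm⟩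
      · rintro ⟨c, hc, _, ⟨u, hu, rfl⟩, huv⟩
        refine ⟨c, hc, g.symm u, ⟨⟨g.symm u, ?_⟩, ?_, rfl⟩, ?_⟩
        · rw [mem_sphere_zero_iff_norm, g.symm.norm_map, norm_eq_of_mem_sphere]
        · convert hu
          exact Subtype.ext (g.apply_symm_apply _)
        · rw [← map_smul, huv, g.symm_apply_apply]
    rw [e]
    exact g.measurePreserving.measure_preimage_emb g.toMeasurableEquiv.measurableEmbedding _
  unfold uniformSphere
  refine ⟨hm, ?_⟩
  rw [Measure.map_smul, hbase.map_eq]

instance isProbability_uniformSphere [NeZero n] : IsProbabilityMeasure (uniformSphere n) := by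
  refine ⟨?_⟩
  rw [uniformSphere, Measure.smul_apply, smul_eq_mul]
  refine ENNReal.inv_mul_cancel ?_ (measure_ne_top _ _)
  rw [Measure.toSphere_apply_univ]
  refine mul_ne_zero (by simp [NeZero.ne n]) (Metric.measure_ball_pos _ _ one_pos).ne'

/-- The polar angle of a point of the plane. -/
noncomputable def polarAngle (a b : ℝ) : Circ := ((Complex.arg ⟨a, b⟩ : ℝ) : Circ)

lemma polar_spec (a b : ℝ) :
    a = Real.sqrt (a ^ 2 + b ^ 2) * cosC (polarAngle a b) ∧
      b = Real.sqrt (a ^ 2 + b ^ 2) * sinC (polarAngle a b) := by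
  have h : ‖(⟨a, b⟩ : ℂ)‖ = Real.sqrt (a ^ 2 + b ^ 2) := by
    rw [Complex.norm_def, Complex.normSq_mk]; ring_nf
  rw [polarAngle, cosC_coe, sinC_coe, ← h]
  exact ⟨(Complex.norm_mul_cos_arg ⟨a, b⟩).symm, (Complex.norm_mul_sin_arg ⟨a, b⟩).symm⟩

variable {R : ℕ}

/-- The part of the product of two spins in the plane `i, j`. -/
noncomputable def planeInner (i j : Fin n) (v w : EuclideanSpace ℝ (Fin n)) : ℝ :=
  v i * w i + v j * w j

lemma inner_rot_split {i j : Fin n} (hij : i ≠ j) (s t : Circ)
    (v w : EuclideanSpace ℝ (Fin n)) :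
    ⟪rotLin i j s v, rotLin i j t w⟫ = planeInner i j (rotLin i j s v) (rotLin i j t w)
      + ∑ k ∈ ((Finset.univ.erase i).erase j), v k * w k := by
  rw [inner_eq_sum, sum_split hij, planeInner]
  congr 1
  refine Finset.sum_congr rfl fun k hk => ?_
  simp only [Finset.mem_erase] at hk
  simp only [rotLin_apply, if_neg hk.2.1, if_neg hk.1]

/-- The plane component of rotated spins as a plane rotator. -/
lemma planeInner_rot {i j : Fin n} (hij : i ≠ j) (s t : Circ) (v w : EuclideanSpace ℝ (Fin n)) :
    planeInner i j (rotLin i j s v) (rotLin i j t w) =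
      Real.sqrt (v i ^ 2 + v j ^ 2) * Real.sqrt (w i ^ 2 + w j ^ 2) *
        cosC ((s + polarAngle (v i) (v j)) - (t + polarAngle (w i) (w j))) := by
  obtain ⟨hv1, hv2⟩ := polar_spec (v i) (v j)
  obtain ⟨hw1, hw2⟩ := polar_spec (w i) (w j)
  set α := polarAngle (v i) (v j)
  set γ := polarAngle (w i) (w j)
  set r := Real.sqrt (v i ^ 2 + v j ^ 2)
  set u := Real.sqrt (w i ^ 2 + w j ^ 2)
  simp only [planeInner, rotLin_apply, if_pos, if_neg hij.symm, cosC_sub, cosC_add, sinC_add]
  rw [hv1, hv2, hw1, hw2]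
  ring

lemma planeRadius_le_one (i j : Fin n) (hij : i ≠ j) (s : Spin n) :
    Real.sqrt ((s : EuclideanSpace ℝ (Fin n)) i ^ 2 + (s : EuclideanSpace ℝ (Fin n)) j ^ 2) ≤ 1 := by
  rw [Real.sqrt_le_one]
  have h : ⟪(s : EuclideanSpace ℝ (Fin n)), (s : EuclideanSpace ℝ (Fin n))⟫ = 1 := by
    rw [real_inner_self_eq_norm_sq, norm_eq_of_mem_sphere, one_pow]
  rw [inner_eq_sum, sum_split hij] at h
  have : 0 ≤ ∑ k ∈ ((Finset.univ.erase i).erase j),
      (s : EuclideanSpace ℝ (Fin n)) k * (s : EuclideanSpace ℝ (Fin n)) k :=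
    Finset.sum_nonneg fun k _ => mul_self_nonneg _
  nlinarith

/-- The weight of the O(n) model. -/
noncomputable def spinWeight (β : ℝ) (σ : box R → Spin n) : ℝ := Real.exp (β * spinEnergy R σ)

@[fun_prop]
lemma continuous_coord (p : box R) (k : Fin n) :
    Continuous fun σ : box R → Spin n => (σ p : EuclideanSpace ℝ (Fin n)) k :=
  ((PiLp.continuous_apply 2 _ k).comp continuous_subtype_val).comp (continuous_apply p)

lemma continuous_spinWeight (β : ℝ) : Continuous (spinWeight (n := n) (R := R) β) := by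
  unfold spinWeight spinEnergy
  refine Real.continuous_exp.comp (continuous_const.mul (continuous_finsetSum _ fun p _ =>
    continuous_finsetSum _ fun q _ => continuous_const.mul ?_))
  exact (continuous_subtype_val.comp (continuous_apply p)).inner
    (continuous_subtype_val.comp (continuous_apply q))

lemma continuous_planeInner (i j : Fin n) (x y : box R) :
    Continuous fun σ : box R → Spin n =>
      planeInner i j (σ x : EuclideanSpace ℝ (Fin n)) (σ y) := by
  unfold planeInner; fun_prop

/-- One coordinate plane is dominated by the plane rotator. -/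
theorem plane_le [NeZero n] {i j : Fin n} (hij : i ≠ j) {β : ℝ} (hβ : 0 ≤ β) (x y : box R) :
    (∫ σ : box R → Spin n,
        planeInner i j (σ x : EuclideanSpace ℝ (Fin n)) (σ y) * spinWeight β σ
        ∂Measure.pi fun _ => uniformSphere n) ≤
      corrJ (coupling R β) x y *
        ∫ σ : box R → Spin n, spinWeight β σ ∂Measure.pi fun _ => uniformSphere n := by
  set P := Measure.pi fun _ : box R => uniformSphere n
  set G : (box R → Spin n) → ℝ :=
    fun σ => planeInner i j (σ x : EuclideanSpace ℝ (Fin n)) (σ y) * spinWeight β σ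
  have hG : Continuous G := (continuous_planeInner i j x y).mul (continuous_spinWeight β)
  -- averaging over rotations changes no integral
  have hrotc : Continuous fun q : (box R → Circ) × (box R → Spin n) =>
      fun p => rotSpin hij (q.1 p) (q.2 p) :=
    continuous_pi fun p => Continuous.comp' (continuous_rotSpin hij)
      (show Continuous fun q : (box R → Circ) × (box R → Spin n) => ((q.1 p, q.2 p) : Circ × Spin n)
        from ((continuous_apply p).comp continuous_fst).prodMk
          ((continuous_apply p).comp continuous_snd))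
  have avg : ∀ H : (box R → Spin n) → ℝ, Continuous H →
      ∫ σ, H σ ∂P = ∫ σ, (∫ θ, H (fun p => rotSpin hij (θ p) (σ p)) ∂torus (box R)) ∂P := by
    intro H hH
    have hc : Continuous fun q : (box R → Circ) × (box R → Spin n) =>
        H (fun p => rotSpin hij (q.1 p) (q.2 p)) := hH.comp hrotc
    obtain ⟨C, hC⟩ := isCompact_univ.exists_bound_of_continuousOn hc.continuousOn
    have hi : Integrable (Function.uncurry fun (θ : box R → Circ) (σ : box R → Spin n) =>
        H (fun p => rotSpin hij (θ p) (σ p))) ((torus (box R)).prod P) :=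
      Integrable.of_bound hc.aestronglyMeasurable C
        (Eventually.of_forall fun q => hC q (Set.mem_univ q))
    rw [← integral_integral_swap hi]
    have hθ : ∀ θ : box R → Circ, ∫ σ, H (fun p => rotSpin hij (θ p) (σ p)) ∂P = ∫ σ, H σ ∂P := by
      intro θ
      have hmp : MeasurePreserving (fun (σ : box R → Spin n) p => rotSpin hij (θ p) (σ p)) P P :=
        measurePreserving_pi _ _ fun p => measurePreserving_rotSpin hij (θ p)
      have h := integral_map hmp.measurable.aemeasurable (μ := P) (f := H)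
        hH.aestronglyMeasurable
      rw [hmp.map_eq] at h
      exact h.symm
    simp [hθ]
  have hwc := continuous_spinWeight (n := n) (R := R) β
  rw [avg G hG, avg _ hwc, ← integral_const_mul]
  have hci : ∀ H : (box R → Spin n) → ℝ, Continuous H → Integrable
      (fun σ => ∫ θ, H (fun p => rotSpin hij (θ p) (σ p)) ∂torus (box R)) P := by
    intro H hH
    have hc : Continuous fun q : (box R → Circ) × (box R → Spin n) =>
        H (fun p => rotSpin hij (q.1 p) (q.2 p)) := hH.comp hrotc
    obtain ⟨C, hC⟩ := isCompact_univ.exists_bound_of_continuousOn hc.continuousOn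
    exact (Integrable.of_bound (μ := P.prod (torus (box R)))
      (f := fun q => H (fun p => rotSpin hij (q.2 p) (q.1 p)))
      (hc.comp continuous_swap).aestronglyMeasurable C
      (Eventually.of_forall fun q => hC (q.2, q.1) (Set.mem_univ _))).integral_prod_left
  refine integral_mono (hci G hG) ((hci _ hwc).const_mul _) fun σ => ?_
  -- the plane rotator hidden in a fixed configuration
  set ρ : box R → ℝ := fun p => Real.sqrt ((σ p : EuclideanSpace ℝ (Fin n)) i ^ 2
    + (σ p : EuclideanSpace ℝ (Fin n)) j ^ 2) with hρ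
  set α : box R → Circ := fun p => polarAngle ((σ p : EuclideanSpace ℝ (Fin n)) i)
    ((σ p : EuclideanSpace ℝ (Fin n)) j) with hα
  set J : box R → box R → ℝ := fun p q => β * nnWeight p.1 q.1 * (ρ p * ρ q) with hJdef
  set K := Real.exp (β * ∑ p : box R, ∑ q : box R, nnWeight p.1 q.1 *
    ∑ k ∈ ((Finset.univ.erase i).erase j),
      (σ p : EuclideanSpace ℝ (Fin n)) k * (σ q : EuclideanSpace ℝ (Fin n)) k) with hK
  have hw : ∀ θ : box R → Circ, spinWeight β (fun p => rotSpin hij (θ p) (σ p))
      = K * Real.exp (inter J (θ + α)) := by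
    intro θ
    rw [spinWeight, hK, ← Real.exp_add]
    congr 1
    simp only [spinEnergy, rotSpin, inner_rot_split hij, planeInner_rot hij, inter, cosD, hJdef,
      hρ, hα, Pi.add_apply, Finset.mul_sum, ← Finset.sum_add_distrib]
    refine Finset.sum_congr rfl fun p _ => Finset.sum_congr rfl fun q _ => ?_
    rw [mul_add, mul_add, Finset.mul_sum, Finset.mul_sum]
    ring
  have hg : ∀ θ : box R → Circ, G (fun p => rotSpin hij (θ p) (σ p))
      = K * (ρ x * ρ y) * (cosD x y (θ + α) * Real.exp (inter J (θ + α))) := by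
    intro θ
    simp only [G, hw]
    rw [show (planeInner i j (rotSpin hij (θ x) (σ x) : EuclideanSpace ℝ (Fin n))
      (rotSpin hij (θ y) (σ y))) = ρ x * ρ y * cosD x y (θ + α) from planeInner_rot hij _ _ _ _]
    ring
  simp only [hg, hw, integral_const_mul]
  rw [integral_add_right_eq_self (μ := torus (box R))
      (fun θ => cosD x y θ * Real.exp (inter J θ)) α,
    integral_add_right_eq_self (μ := torus (box R)) (fun θ => Real.exp (inter J θ)) α]
  have hr0 : ∀ p, 0 ≤ ρ p := fun p => Real.sqrt_nonneg _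
  have hr1 : ∀ p, ρ p ≤ 1 := fun p => planeRadius_le_one i j hij (σ p)
  have hJ0 : ∀ p q, 0 ≤ J p q := fun p q =>
    mul_nonneg (mul_nonneg hβ (nnWeight_nonneg _ _)) (mul_nonneg (hr0 p) (hr0 q))
  have hle : ∀ p q, J p q ≤ coupling R β p q := fun p q => by
    have := mul_le_mul_of_nonneg_left (mul_le_one₀ (hr1 p) (hr0 q) (hr1 q))
      (mul_nonneg hβ (nnWeight_nonneg p.1 q.1))
    simpa [hJdef, coupling] using this
  have hZ : 0 < rawInt J fun _ => 1 := rawInt_one_pos J
  have hmain : rawInt J (cosD x y) ≤ corrJ (coupling R β) x y * rawInt J fun _ => 1 := by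
    have h := corrJ_mono hJ0 hle x y
    rwa [corrJ, gibbs, div_le_iff₀ hZ] at h
  have hnum : 0 ≤ rawInt J (cosD x y) := by
    have h := corrJ_nonneg hJ0 x y
    rwa [corrJ, gibbs, le_div_iff₀ hZ, zero_mul] at h
  simp only [rawInt, one_mul] at hmain hnum
  have hK0 : 0 ≤ K := (Real.exp_pos _).le
  calc K * (ρ x * ρ y) * ∫ θ, cosD x y θ * Real.exp (inter J θ) ∂torus (box R)
      ≤ K * 1 * ∫ θ, cosD x y θ * Real.exp (inter J θ) ∂torus (box R) := by
        refine mul_le_mul_of_nonneg_right ?_ hnum
        exact mul_le_mul_of_nonneg_left (mul_le_one₀ (hr1 x) (hr0 y) (hr1 y)) hK0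
    _ ≤ K * (corrJ (coupling R β) x y * ∫ θ, Real.exp (inter J θ) ∂torus (box R)) := by
        rw [mul_one]; exact mul_le_mul_of_nonneg_left hmain hK0
    _ = _ := by ring

/-- **The O(n) model is dominated by the plane rotator.** -/
theorem spinCorr_le (hn : 2 ≤ n) {β : ℝ} (hβ : 0 ≤ β) (x y : ℤ × ℤ) :
    spinCorr n R β x y ≤ (n : ℝ) / 2 * twoPoint R β x y := by
  have : NeZero n := ⟨by omega⟩
  by_cases h : x ∈ box R ∧ y ∈ box R
  swap
  · rw [spinCorr, dif_neg h, twoPoint_eq, dif_neg h, mul_zero]
  rw [spinCorr, dif_pos h, twoPoint_eq, dif_pos h]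
  set X : box R := ⟨x, h.1⟩
  set Y : box R := ⟨y, h.2⟩
  set P := Measure.pi fun _ : box R => uniformSphere n
  set C := corrJ (coupling R β) X Y
  have hint : ∀ H : (box R → Spin n) → ℝ, Continuous H → Integrable H P := fun H hH =>
    integrable_cont hH
  set Z := ∫ σ, spinWeight (n := n) β σ ∂P
  have hZ : 0 < Z := integral_exp_pos (hint _ (continuous_spinWeight β))
  set F : Fin n → Fin n → ℝ := fun i j => ∫ σ : box R → Spin n,
    planeInner i j (σ X : EuclideanSpace ℝ (Fin n)) (σ Y) * spinWeight β σ ∂P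
  set a : Fin n → ℝ := fun i => ∫ σ : box R → Spin n,
    ((σ X : EuclideanSpace ℝ (Fin n)) i * (σ Y : EuclideanSpace ℝ (Fin n)) i) * spinWeight β σ ∂P
  have hc : ∀ i, Continuous fun σ : box R → Spin n =>
      ((σ X : EuclideanSpace ℝ (Fin n)) i * (σ Y : EuclideanSpace ℝ (Fin n)) i) * spinWeight β σ :=
    fun i => ((continuous_coord X i).mul (continuous_coord Y i)).mul (continuous_spinWeight β)
  have hF : ∀ i j, F i j = a i + a j := fun i j => by
    rw [← integral_add (hint _ (hc i)) (hint _ (hc j))]
    exact integral_congr_ae (Eventually.of_forall fun σ => by simp only [planeInner]; ring)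
  have hsum : ∑ i, ∑ j ∈ Finset.univ.erase i, F i j = 2 * ((n : ℝ) - 1) * ∑ i, a i := by
    simp only [hF]
    have e : ∀ i, ∑ j ∈ Finset.univ.erase i, (a i + a j) = (n : ℝ) * a i + ∑ j, a j - 2 * a i := by
      intro i
      rw [Finset.sum_erase_eq_sub (Finset.mem_univ i), Finset.sum_add_distrib, Finset.sum_const,
        Finset.card_univ, Fintype.card_fin, nsmul_eq_mul]
      ring
    simp only [e, Finset.sum_sub_distrib, Finset.sum_add_distrib, Finset.sum_const,
      Finset.card_univ, Fintype.card_fin, nsmul_eq_mul, ← Finset.mul_sum]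
    ring
  have hb : ∑ i, ∑ j ∈ Finset.univ.erase i, F i j ≤ (n : ℝ) * ((n : ℝ) - 1) * (C * Z) := by
    refine (Finset.sum_le_sum fun i _ => Finset.sum_le_sum fun j hj =>
      plane_le (Finset.ne_of_mem_erase hj).symm hβ X Y).trans_eq ?_
    simp only [Finset.sum_const, Finset.card_erase_of_mem (Finset.mem_univ _), Finset.card_univ,
      Fintype.card_fin, nsmul_eq_mul, Nat.cast_sub (show 1 ≤ n by omega), Nat.cast_one]
    ring
  have hn1 : (0 : ℝ) < (n : ℝ) - 1 := by
    have : (2 : ℝ) ≤ n := by exact_mod_cast hn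
    linarith
  have hA : ∑ i, a i ≤ (n : ℝ) / 2 * C * Z := by
    rw [hsum] at hb
    refine le_of_mul_le_mul_left ?_ (mul_pos two_pos hn1)
    refine hb.trans_eq ?_
    ring
  change (∫ σ : box R → Spin n,
    ⟪(σ X : EuclideanSpace ℝ (Fin n)), (σ Y : EuclideanSpace ℝ (Fin n))⟫ * spinWeight β σ ∂P) / Z
      ≤ _
  rw [div_le_iff₀ hZ]
  refine le_of_eq_of_le ?_ hA
  simp only [inner_eq_sum, Finset.sum_mul]
  exact integral_finsetSum _ fun i _ => hint _ (hc i)

end Vale.Agent.P163
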